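import Vale.Agent.P181.RH.H467.DesG

set_option autoImplicit false

/-!
# P181, RH: [DES-b], two lengths
-/

namespace Vale.Agent.P181.RH.H467

open Finset Function Vale.Agent.P181 Vale.Agent.P181.RH
open Vale.Agent.P181.RG (Lt Own Same Thin)
open Vale.Agent.P181.RG.H467 (cA cA_lt cA_inj card_cA)

/-- The row of the free letter in the form column `s < D1` of length `2`. -/
def al1 (D2 l s : ℕ) : ℕ := if s < l / (D2 + 1) then 1 else 0

/-- The row of the free letter in the form column `s < D2` of length `m`. -/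
def al2 (D2 l s : ℕ) : ℕ := if s < l % (D2 + 1) then 2 else 0

/-- The pattern of the free letters (two lengths), the literal of helper935. -/
def Pat2 (u m D1 D2 R2 R3 k f₀ f₂ T s : ℕ) (e : Fin u → ℕ) : Prop :=
  ∃ fr : Fin R2 ⊕ Fin R3 → Fin m → Option (Fin u),
    (∀ c, Thin (fr c)) ∧
    (∀ (c : Fin R2) (r : Fin m), 2 ≤ (r : ℕ) → fr (Sum.inl c) r = none) ∧
    (∀ i, D1 + D2 + ∑ c, (univ.filter fun r : Fin m => fr c r = some i).card = e i) ∧
    (∀ (τ : Equiv.Perm (Fin u)) (r : Fin m), (r : ℕ) < 2 →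
      (univ.filter fun p : Fin u × Fin D1 => (r : ℕ) ≠ al1 D2 (τ p.1) p.2).card +
        (univ.filter fun p : Fin u × Fin D2 => (r : ℕ) ≠ al2 D2 (τ p.1) p.2).card +
        (univ.filter fun c : Fin R2 ⊕ Fin R3 => fr c r = none).card = ff m f₀ f₂ r * k) ∧
    (∀ (τ : Equiv.Perm (Fin u)) (r : Fin m), 2 ≤ (r : ℕ) →
      (univ.filter fun p : Fin u × Fin D2 => (r : ℕ) ≠ al2 D2 (τ p.1) p.2).card +
        (univ.filter fun c : Fin R3 => fr (Sum.inr c) r = none).card = ff m f₀ f₂ r * k) ∧
    (∀ i j : Fin u, i < j → (i : ℕ) / s = (j : ℕ) / s →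
      ∃ c : Fin R2, ∀ r : Fin m, fr (Sum.inl c) r = if (r : ℕ) = 0 then some i
        else if (r : ℕ) = 1 then some j else none) ∧
    (∃ γ : Fin u × Fin T → Fin R2, Injective γ ∧
      ∀ p (r : Fin m), fr (Sum.inl (γ p)) r = if (r : ℕ) = 1 then some p.1 else none) ∧
    (∃ γ : Fin u × Fin T → Fin R3, Injective γ ∧
      ∀ p (r : Fin m), fr (Sum.inr (γ p)) r = if (r : ℕ) = 0 then some p.1 else none) ∧
    (∃ γ : Fin f₀ × Fin f₀ → Fin R2, Injective γ ∧ ∀ p r, fr (Sum.inl (γ p)) r = none) ∧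
    (∃ γ : (Fin f₀ × Fin f₂) ⊕ (Fin m × Fin f₂ × Fin f₂) → Fin R3, Injective γ ∧
      ∀ p r, fr (Sum.inr (γ p)) r = none)

/-- Few objects have a code in a given residue class. -/
lemma cnt_le {Q A : Type} [Fintype Q] [Fintype A] (c : Q → ℕ) (o : Q → A) (f F x : ℕ)
    (hf : 0 < f) (hF : F ≤ 2 * f) (hc : ∀ q, c q < F)
    (hinj : ∀ q q', o q = o q' → c q = c q' → q = q') :
    (univ.filter fun q : Q => c q % f = x).card ≤ 2 * Fintype.card A := by
  classical
  have hcard : (univ : Finset (A × Fin 2)).card = 2 * Fintype.card A := by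
    rw [card_univ, Fintype.card_prod, Fintype.card_fin, mul_comm]
  have hlt : ∀ q, c q / f < 2 := by
    intro q
    rw [Nat.div_lt_iff_lt_mul hf]
    have := hc q
    omega
  rw [← hcard]
  refine card_le_card_of_injOn (fun q => (o q, ⟨c q / f, hlt q⟩)) ?_ ?_
  · intro q _
    exact mem_coe.2 (mem_univ _)
  · intro q hq q' hq' h
    rw [coe_filter, Set.mem_ofPred_eq] at hq hq'
    simp only [Prod.mk.injEq, Fin.mk.injEq] at h
    apply hinj q q' h.1
    have e1 := Nat.div_add_mod (c q) f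
    have e2 := Nat.div_add_mod (c q') f
    rw [← e1, ← e2, h.2, hq.2, hq'.2]

section Num

variable {m f₀ f₂ T : ℕ}

lemma ff_anti (hm : 2 * m ≤ f₂) (h : f₂ + 2 ≤ f₀) : StrictAnti (ff m f₀ f₂) := by
  intro r r' hr
  have h1 : (r : ℕ) < r' := hr
  have h2 := r'.2
  unfold ff
  split_ifs <;> omega

lemma le_ff (hT : T + m ≤ f₂) (h : f₂ + 2 ≤ f₀) (r : Fin m) : T ≤ ff m f₀ f₂ r := by
  have h2 := r.2
  unfold ff
  split_ifs <;> omega

end Num

/-- **[DES-b]**, two lengths. -/
theorem desB2 (hE : RG.ExtRG) (hP : PeakRH) (u m D1 D2 R2 R3 k f₀ f₂ F₀ F₂ T s : ℕ)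
    (e : Fin u → ℕ) (hN : NumD u m D1 D2 R2 R3 k f₀ f₂ F₀ F₂ T s)
    (hpat : Pat2 u m D1 D2 R2 R3 k f₀ f₂ T s e) :
    LDes u m (D1 + D2) (R2 + R3) k (ff m f₀ f₂) (lf D1 D2 m) (lr R2 R3 m) (pos D1 D2) e := by
  classical
  obtain ⟨hm, hu, -, -, -, -, -, -, -, -, h4, h8, hgT, hT, h2m, hff⟩ := hN
  obtain ⟨fr, hthin, hfr2, hcnt, hs1, hs2, hpair, ⟨γ1, hγ1, hf1⟩, ⟨γ0, hγ0, hf0⟩,
    ⟨γa, hγa, hfa⟩, γb, hγb, hfb⟩ := hpat
  let fr' : Fin (R2 + R3) → Fin m → Option (Fin u) := fun c =>
    Fin.addCases (motive := fun _ => Fin m → Option (Fin u)) (fun c => fr (Sum.inl c))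
      (fun c => fr (Sum.inr c)) c
  have hL : ∀ c : Fin R2, fr' (Fin.castAdd R3 c) = fr (Sum.inl c) := fun c =>
    Fin.addCases_left c
  have hR : ∀ c : Fin R3, fr' (Fin.natAdd R2 c) = fr (Sum.inr c) := fun c =>
    Fin.addCases_right c
  have lL : ∀ c : Fin R2, lr R2 R3 m (Fin.castAdd R3 c) = 2 := by
    intro c
    unfold lr
    rw [if_pos]
    exact c.2
  have lR : ∀ c : Fin R3, lr R2 R3 m (Fin.natAdd R2 c) = m := by
    intro c
    unfold lr
    rw [if_neg]
    rw [Fin.val_natAdd]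
    omega
  have fL : ∀ c : Fin D1, lf D1 D2 m (Fin.castAdd D2 c) = 2 := by
    intro c
    unfold lf
    rw [if_pos]
    exact c.2
  have fR : ∀ c : Fin D2, lf D1 D2 m (Fin.natAdd D1 c) = m := by
    intro c
    unfold lf
    rw [if_neg]
    rw [Fin.val_natAdd]
    omega
  have pL : ∀ (l : ℕ) (c : Fin D1), pos D1 D2 l (Fin.castAdd D2 c) = al1 D2 l c := by
    intro l c
    unfold pos al1
    rw [if_pos]
    · rfl
    · exact c.2
  have pR : ∀ (l : ℕ) (c : Fin D2), pos D1 D2 l (Fin.natAdd D1 c) = al2 D2 l c := by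
    intro l c
    unfold pos al2
    rw [if_neg]
    · rw [Fin.val_natAdd, Nat.add_sub_cancel_left]
    · rw [Fin.val_natAdd]
      omega
  let r0 : Fin m := ⟨0, by omega⟩
  let r1 : Fin m := ⟨1, by omega⟩
  -- the thin column of the row `r`, and its other row
  let δ : Fin m → Fin u × Fin T → Fin (R2 + R3) := fun r p =>
    if (r : ℕ) = 0 then Fin.castAdd R3 (γ1 p) else Fin.natAdd R2 (γ0 p)
  let ro : Fin m → Fin m := fun r => if (r : ℕ) = 0 then r1 else r0
  have hro : ∀ r, ro r ≠ r := by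
    intro r h
    by_cases hr : (r : ℕ) = 0
    · simp only [ro, if_pos hr] at h
      have := congrArg Fin.val h
      simp only [r1] at this
      omega
    · simp only [ro, if_neg hr] at h
      have := congrArg Fin.val h
      simp only [r0] at this
      omega
  have hδ : ∀ (r : Fin m) p, ((r : ℕ) < lr R2 R3 m (δ r p) ∧ fr' (δ r p) r = none) ∧
      ((ro r : ℕ) < lr R2 R3 m (δ r p) ∧ fr' (δ r p) (ro r) = some p.1) := by
    intro r p
    by_cases h : (r : ℕ) = 0
    · simp only [δ, ro, if_pos h]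
      rw [lL, hL, hf1, hf1, if_neg (by omega), if_pos rfl]
      exact ⟨⟨by omega, rfl⟩, by simp [r1], rfl⟩
    · simp only [δ, ro, if_neg h]
      rw [lR, hR, hf0, hf0, if_neg h, if_pos rfl]
      exact ⟨⟨r.2, rfl⟩, r0.2, rfl⟩
  have hδi : ∀ r, Injective (δ r) := by
    intro r p q h
    by_cases hr : (r : ℕ) = 0
    · simp only [δ, if_pos hr] at h
      exact hγ1 (Fin.castAdd_injective _ _ h)
    · simp only [δ, if_neg hr] at h
      exact hγ0 (Fin.natAdd_injective _ _ h)
  let Q : Fin m → Type := fun r => {_q : Fin f₀ × Fin f₀ // (r : ℕ) < 2} ⊕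
    ((Fin f₀ × Fin f₂) ⊕ {_q : Fin m × Fin f₂ × Fin f₂ // 2 ≤ (r : ℕ)})
  let _ : ∀ r, Fintype (Q r) := fun r => by
    dsimp only [Q]
    infer_instance
  let η : ∀ r, Q r → Fin (R2 + R3) := fun r => Sum.elim (fun q => Fin.castAdd R3 (γa q.1))
    (Sum.elim (fun q => Fin.natAdd R2 (γb (Sum.inl q)))
      (fun q => Fin.natAdd R2 (γb (Sum.inr q.1))))
  let cQ : ∀ r : Fin m, Q r → ℕ := fun r => Sum.elim
    (fun q => if (r : ℕ) = 0 then (q.1.1 : ℕ) else q.1.2)
    (Sum.elim (fun q => if (r : ℕ) < 2 then (q.1 : ℕ) else q.2)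
      (fun q => if q.1.1 = r then (q.1.2.1 : ℕ) else q.1.2.2))
  have hlr : ∀ (a : Fin R2) (b : Fin R3), Fin.castAdd R3 a ≠ Fin.natAdd R2 b := by
    intro a b h
    have h1 := congrArg Fin.val h
    rw [Fin.val_castAdd, Fin.val_natAdd] at h1
    have := a.2
    omega
  have hη : ∀ r, Injective (η r) := by
    intro r
    refine Injective.sumElim ?_ (Injective.sumElim ?_ ?_ ?_) ?_
    · intro q q' h
      exact Subtype.ext (hγa (Fin.castAdd_injective _ _ h))
    · intro q q' h
      exact Sum.inl.inj (hγb (Fin.natAdd_injective _ _ h))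
    · intro q q' h
      exact Subtype.ext (Sum.inr.inj (hγb (Fin.natAdd_injective _ _ h)))
    · intro q q' h
      cases hγb (Fin.natAdd_injective _ _ h)
    · rintro q (q' | q') h
      · exact hlr _ _ h
      · exact hlr _ _ h
  have hηr : ∀ (r : Fin m) q, (r : ℕ) < lr R2 R3 m (η r q) ∧ ∀ r' : Fin m, fr' (η r q) r' = none := by
    rintro r (q | q | q)
    · refine ⟨?_, fun r' => ?_⟩
      · change (r : ℕ) < lr R2 R3 m (Fin.castAdd R3 (γa q.1))
        rw [lL]
        exact q.2
      · change fr' (Fin.castAdd R3 (γa q.1)) r' = none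
        rw [hL, hfa]
    · refine ⟨?_, fun r' => ?_⟩
      · change (r : ℕ) < lr R2 R3 m (Fin.natAdd R2 (γb (Sum.inl q)))
        rw [lR]
        exact r.2
      · change fr' (Fin.natAdd R2 (γb (Sum.inl q))) r' = none
        rw [hR, hfb]
    · refine ⟨?_, fun r' => ?_⟩
      · change (r : ℕ) < lr R2 R3 m (Fin.natAdd R2 (γb (Sum.inr q.1)))
        rw [lR]
        exact r.2
      · change fr' (Fin.natAdd R2 (γb (Sum.inr q.1))) r' = none
        rw [hR, hfb]
  have hTpos : 0 < T := Nat.lt_of_lt_of_le (Nat.succ_pos _) hgT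
  have hfpos : ∀ r : Fin m, 0 < ff m f₀ f₂ r := fun r => by
    have := le_ff hT hff r
    omega
  refine desG hE hP u m (D1 + D2) (R2 + R3) k T (u / s + 1) (ff m f₀ f₂) (lf D1 D2 m)
    (lr R2 R3 m) (pos D1 D2) e fr' (fun i => ⟨(i : ℕ) / s,
      Nat.lt_succ_of_le (Nat.div_le_div_right (le_of_lt i.2))⟩) hu (by omega)
    (le_ff hT hff) (ff_anti h2m hff) ?_ ?_ ?_ ?_ ?_ ?_ (fun r => (Fin u × Fin T) ⊕ Q r)
    (fun r => Sum.elim (δ r) (η r)) ?_ ?_ (fun r => Sum.elim (cA T u) (cQ r)) ?_ ?_ ?_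
  · intro c
    unfold lf
    split_ifs <;> omega
  · intro l _ c
    unfold pos lf
    split_ifs <;> omega
  · intro c
    refine Fin.addCases (fun c => ?_) (fun c => ?_) c
    · rw [hL]
      exact hthin _
    · rw [hR]
      exact hthin _
  · intro i
    rw [← hcnt i, Fin.sum_univ_add, Fintype.sum_sum_type]
    congr 2
    · refine sum_congr rfl fun c _ => ?_
      congr 1
      ext r
      rw [mem_filter, mem_filter, lL, hL]
      refine and_congr Iff.rfl ⟨fun h => h.2, fun h => ⟨?_, h⟩⟩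
      by_contra hr
      rw [hfr2 c r (by omega)] at h
      cases h
    · refine sum_congr rfl fun c _ => ?_
      congr 1
      ext r
      rw [mem_filter, mem_filter, lR, hR]
      exact and_congr Iff.rfl ⟨fun h => h.2, fun h => ⟨r.2, h⟩⟩
  · intro τ r
    have hA : (univ.filter fun p : Fin u × Fin (D1 + D2) =>
        (r : ℕ) < lf D1 D2 m p.2 ∧ (r : ℕ) ≠ pos D1 D2 (τ p.1) p.2).card =
        (univ.filter fun p : Fin u × Fin D1 => (r : ℕ) < 2 ∧ (r : ℕ) ≠ al1 D2 (τ p.1) p.2).card +
        (univ.filter fun p : Fin u × Fin D2 => (r : ℕ) ≠ al2 D2 (τ p.1) p.2).card := by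
      rw [card_filter, card_filter, card_filter, Fintype.sum_prod_type, Fintype.sum_prod_type,
        Fintype.sum_prod_type, ← sum_add_distrib]
      refine sum_congr rfl fun x _ => ?_
      rw [Fin.sum_univ_add]
      congr 1
      · refine sum_congr rfl fun c _ => if_congr ?_ rfl rfl
        rw [fL, pL]
      · refine sum_congr rfl fun c _ => if_congr ?_ rfl rfl
        rw [fR, pR]
        exact ⟨fun h => h.2, fun h => ⟨r.2, h⟩⟩
    have hB : (univ.filter fun c : Fin (R2 + R3) => (r : ℕ) < lr R2 R3 m c ∧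
        fr' c r = none).card =
        (univ.filter fun c : Fin R2 => (r : ℕ) < 2 ∧ fr (Sum.inl c) r = none).card +
        (univ.filter fun c : Fin R3 => fr (Sum.inr c) r = none).card := by
      rw [card_filter, card_filter, card_filter, Fin.sum_univ_add]
      congr 1
      · refine sum_congr rfl fun c _ => if_congr ?_ rfl rfl
        rw [lL, hL]
      · refine sum_congr rfl fun c _ => if_congr ?_ rfl rfl
        rw [lR, hR]
        exact ⟨fun h => h.2, fun h => ⟨r.2, h⟩⟩
    rw [hA, hB]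
    by_cases hr : (r : ℕ) < 2
    · rw [← hs1 τ r hr]
      have e1 : (univ.filter fun p : Fin u × Fin D1 => (r : ℕ) < 2 ∧
          (r : ℕ) ≠ al1 D2 (τ p.1) p.2).card =
          (univ.filter fun p : Fin u × Fin D1 => (r : ℕ) ≠ al1 D2 (τ p.1) p.2).card := by
        congr 1
        ext p
        rw [mem_filter, mem_filter]
        exact and_congr Iff.rfl ⟨fun h => h.2, fun h => ⟨hr, h⟩⟩
      have e2 : (univ.filter fun c : Fin R2 => (r : ℕ) < 2 ∧ fr (Sum.inl c) r = none).card =
          (univ.filter fun c : Fin R2 => fr (Sum.inl c) r = none).card := by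
        congr 1
        ext p
        rw [mem_filter, mem_filter]
        exact and_congr Iff.rfl ⟨fun h => h.2, fun h => ⟨hr, h⟩⟩
      have e3 : (univ.filter fun c : Fin R2 ⊕ Fin R3 => fr c r = none).card =
          (univ.filter fun c : Fin R2 => fr (Sum.inl c) r = none).card +
          (univ.filter fun c : Fin R3 => fr (Sum.inr c) r = none).card := by
        rw [card_filter, card_filter, card_filter, Fintype.sum_sum_type]
      rw [e1, e2, e3]
    · rw [← hs2 τ r (by omega)]
      have e1 : (univ.filter fun p : Fin u × Fin D1 => (r : ℕ) < 2 ∧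
          (r : ℕ) ≠ al1 D2 (τ p.1) p.2).card = 0 := by
        rw [card_eq_zero, filter_eq_empty_iff]
        intro p _ h
        exact hr h.1
      have e2 : (univ.filter fun c : Fin R2 => (r : ℕ) < 2 ∧ fr (Sum.inl c) r = none).card = 0 := by
        rw [card_eq_zero, filter_eq_empty_iff]
        intro p _ h
        exact hr h.1
      rw [e1, e2]
      ring
  · intro i j hij hg
    obtain ⟨c, hc⟩ := hpair i j hij (congrArg Fin.val hg)
    refine ⟨Fin.castAdd R3 c, r0, r1, ?_, ?_, ?_, ?_, ?_⟩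
    · intro h
      have := congrArg Fin.val h
      simp only [r0, r1] at this
      omega
    · rw [lL]
      simp [r0]
    · rw [lL]
      simp [r1]
    · rw [hL, hc, if_pos rfl]
    · rw [hL, hc, if_neg (by simp [r1]), if_pos rfl]
  · intro r
    refine (hδi r).sumElim (hη r) fun p q h => ?_
    have h2 := (hδ r p).2.2
    rw [h, (hηr r q).2] at h2
    cases h2
  · rintro r (p | q)
    · exact (hδ r p).1
    · exact ⟨(hηr r q).1, (hηr r q).2 r⟩
  · intro r x
    have hfr := hfpos r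
    have h3 := card_cA (T := T) (u := u) (f := ff m f₀ f₂ r) x
    have h6 : 4 * (u * T / ff m f₀ f₂ r) ≤ k := by
      have h7 : u * T / ff m f₀ f₂ r * ff m f₀ f₂ r ≤ u * T := Nat.div_mul_le_self _ _
      have h9 : (f₂ - m) * k ≤ ff m f₀ f₂ r * k :=
        Nat.mul_le_mul_right k (by
          have := r.2
          unfold ff
          split_ifs <;> omega)
      apply Nat.le_of_mul_le_mul_left (c := ff m f₀ f₂ r) _ hfr
      calc ff m f₀ f₂ r * (4 * (u * T / ff m f₀ f₂ r))
          = 4 * (u * T / ff m f₀ f₂ r * ff m f₀ f₂ r) := by ring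
        _ ≤ 4 * (u * T) := Nat.mul_le_mul_left 4 h7
        _ ≤ ff m f₀ f₂ r * k := h4.trans h9
    have hA : (univ.filter fun q : {_q : Fin f₀ × Fin f₀ // (r : ℕ) < 2} =>
        cQ r (Sum.inl q) % ff m f₀ f₂ r = x).card ≤ if (r : ℕ) < 2 then 2 * f₀ else 0 := by
      by_cases hr : (r : ℕ) < 2
      · rw [if_pos hr]
        have := cnt_le (Q := {_q : Fin f₀ × Fin f₀ // (r : ℕ) < 2}) (A := Fin f₀)
          (fun q => cQ r (Sum.inl q)) (fun q => if (r : ℕ) = 0 then q.1.2 else q.1.1)
          (ff m f₀ f₂ r) f₀ x hfr (by unfold ff; rw [if_pos hr]; omega) ?_ ?_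
        · rwa [Fintype.card_fin] at this
        · intro q
          change (if (r : ℕ) = 0 then (q.1.1 : ℕ) else q.1.2) < f₀
          split_ifs
          · exact q.1.1.2
          · exact q.1.2.2
        · rintro ⟨⟨a, b⟩, _⟩ ⟨⟨a', b'⟩, _⟩ h h'
          change (if (r : ℕ) = 0 then (a : ℕ) else b) = (if (r : ℕ) = 0 then (a' : ℕ) else b') at h'
          apply Subtype.ext
          by_cases h0 : (r : ℕ) = 0
          · simp only [if_pos h0] at h h'
            exact Prod.ext (Fin.ext h') h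
          · simp only [if_neg h0] at h h'
            exact Prod.ext h (Fin.ext h')
      · rw [if_neg hr, Nat.le_zero, card_eq_zero, filter_eq_empty_iff]
        intro q
        exact absurd q.2 hr
    have hB : (univ.filter fun q : Fin f₀ × Fin f₂ =>
        cQ r (Sum.inr (Sum.inl q)) % ff m f₀ f₂ r = x).card ≤
          if (r : ℕ) < 2 then 2 * f₂ else 2 * f₀ := by
      by_cases hr : (r : ℕ) < 2
      · rw [if_pos hr]
        have := cnt_le (Q := Fin f₀ × Fin f₂) (A := Fin f₂)
          (fun q => cQ r (Sum.inr (Sum.inl q))) (fun q => q.2)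
          (ff m f₀ f₂ r) f₀ x hfr (by unfold ff; rw [if_pos hr]; omega) ?_ ?_
        · rwa [Fintype.card_fin] at this
        · intro q
          change (if (r : ℕ) < 2 then (q.1 : ℕ) else q.2) < f₀
          rw [if_pos hr]
          exact q.1.2
        · rintro ⟨a, b⟩ ⟨a', b'⟩ h h'
          change (if (r : ℕ) < 2 then (a : ℕ) else b) = (if (r : ℕ) < 2 then (a' : ℕ) else b') at h'
          rw [if_pos hr, if_pos hr] at h'
          exact Prod.ext (Fin.ext h') h
      · rw [if_neg hr]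
        have := cnt_le (Q := Fin f₀ × Fin f₂) (A := Fin f₀)
          (fun q => cQ r (Sum.inr (Sum.inl q))) (fun q => q.1)
          (ff m f₀ f₂ r) f₂ x hfr (by have := r.2; unfold ff; rw [if_neg hr]; omega) ?_ ?_
        · rwa [Fintype.card_fin] at this
        · intro q
          change (if (r : ℕ) < 2 then (q.1 : ℕ) else q.2) < f₂
          rw [if_neg hr]
          exact q.2.2
        · rintro ⟨a, b⟩ ⟨a', b'⟩ h h'
          change (if (r : ℕ) < 2 then (a : ℕ) else b) = (if (r : ℕ) < 2 then (a' : ℕ) else b') at h'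
          rw [if_neg hr, if_neg hr] at h'
          exact Prod.ext h (Fin.ext h')
    have hC : (univ.filter fun q : {_q : Fin m × Fin f₂ × Fin f₂ // 2 ≤ (r : ℕ)} =>
        cQ r (Sum.inr (Sum.inr q)) % ff m f₀ f₂ r = x).card ≤
          if (r : ℕ) < 2 then 0 else 2 * (m * f₂) := by
      by_cases hr : (r : ℕ) < 2
      · rw [if_pos hr, Nat.le_zero, card_eq_zero, filter_eq_empty_iff]
        intro q
        exact absurd q.2 (by omega)
      · rw [if_neg hr]
        have := cnt_le (Q := {_q : Fin m × Fin f₂ × Fin f₂ // 2 ≤ (r : ℕ)}) (A := Fin m × Fin f₂)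
          (fun q => cQ r (Sum.inr (Sum.inr q)))
          (fun q => (q.1.1, if q.1.1 = r then q.1.2.2 else q.1.2.1))
          (ff m f₀ f₂ r) f₂ x hfr (by have := r.2; unfold ff; rw [if_neg hr]; omega) ?_ ?_
        · rwa [Fintype.card_prod, Fintype.card_fin, Fintype.card_fin] at this
        · intro q
          change (if q.1.1 = r then (q.1.2.1 : ℕ) else q.1.2.2) < f₂
          split_ifs
          · exact q.1.2.1.2
          · exact q.1.2.2.2
        · rintro ⟨⟨a, b, c⟩, _⟩ ⟨⟨a', b', c'⟩, _⟩ h h'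
          change (if a = r then (b : ℕ) else c) = (if a' = r then (b' : ℕ) else c') at h'
          simp only [Prod.mk.injEq] at h
          obtain ⟨h1, h2⟩ := h
          subst h1
          apply Subtype.ext
          by_cases h0 : a = r
          · simp only [if_pos h0] at h2 h'
            exact Prod.ext rfl (Prod.ext (Fin.ext h') h2)
          · simp only [if_neg h0] at h2 h'
            exact Prod.ext rfl (Prod.ext h2 (Fin.ext h'))
    have hS : (univ.filter fun p : (Fin u × Fin T) ⊕ Q r =>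
        Sum.elim (cA T u) (cQ r) p % ff m f₀ f₂ r = x).card =
        (univ.filter fun p : Fin u × Fin T => cA T u p % ff m f₀ f₂ r = x).card +
        ((univ.filter fun q : {_q : Fin f₀ × Fin f₀ // (r : ℕ) < 2} =>
          cQ r (Sum.inl q) % ff m f₀ f₂ r = x).card +
        ((univ.filter fun q : Fin f₀ × Fin f₂ =>
          cQ r (Sum.inr (Sum.inl q)) % ff m f₀ f₂ r = x).card +
        (univ.filter fun q : {_q : Fin m × Fin f₂ × Fin f₂ // 2 ≤ (r : ℕ)} =>
          cQ r (Sum.inr (Sum.inr q)) % ff m f₀ f₂ r = x).card)) := by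
      rw [card_filter, Fintype.sum_sum_type]
      have h5 : ∑ q : Q r, (if Sum.elim (cA T u) (cQ r) (Sum.inr q) % ff m f₀ f₂ r = x
          then 1 else 0) = _ + _ := Fintype.sum_sum_type _
      rw [h5, Fintype.sum_sum_type, card_filter, card_filter, card_filter, card_filter]
      rfl
    rw [hS]
    have hmf : f₂ ≤ m * f₂ := Nat.le_mul_of_pos_left f₂ (by omega)
    split_ifs at hA hB hC <;> omega
  · intro i r
    refine ⟨fun t => Sum.inl (i, t), ?_, ?_⟩
    · intro t t' h
      have h1 : ((i : ℕ) * T + t) % ff m f₀ f₂ r = ((i : ℕ) * T + t') % ff m f₀ f₂ r := h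
      have h2 : (t : ℕ) ≡ t' [MOD ff m f₀ f₂ r] :=
        Nat.ModEq.add_left_cancel' ((i : ℕ) * T) h1
      have hTf := le_ff hT hff r
      exact Fin.ext (Nat.ModEq.eq_of_lt_of_lt h2 (lt_of_lt_of_le t.2 hTf)
        (lt_of_lt_of_le t'.2 hTf))
    · intro t
      exact ⟨ro r, hro r, (hδ r (i, t)).2.1, (hδ r (i, t)).2.2⟩
  · have key : ∀ r r' : Fin m, r < r' → ∀ x, x < ff m f₀ f₂ r → ∀ y, y < ff m f₀ f₂ r' →
        ∃ (p : Q r) (p' : Q r'), η r p = η r' p' ∧ cQ r p % ff m f₀ f₂ r = x ∧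
          cQ r' p' % ff m f₀ f₂ r' = y := by
      intro r r' hrr x hx y hy
      have hlt : (r : ℕ) < r' := hrr
      by_cases h1 : (r' : ℕ) < 2
      · have hr0 : (r : ℕ) = 0 := by omega
        have hx0 : x < f₀ := by
          have := hx
          unfold ff at this
          split_ifs at this <;> omega
        have hy0 : y < f₀ := by
          have := hy
          unfold ff at this
          split_ifs at this <;> omega
        refine ⟨Sum.inl ⟨(⟨x, hx0⟩, ⟨y, hy0⟩), by omega⟩, Sum.inl ⟨(⟨x, hx0⟩, ⟨y, hy0⟩), h1⟩, rfl,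
          ?_, ?_⟩
        · change (if (r : ℕ) = 0 then x else y) % ff m f₀ f₂ r = x
          rw [if_pos hr0, Nat.mod_eq_of_lt hx]
        · change (if (r' : ℕ) = 0 then x else y) % ff m f₀ f₂ r' = y
          rw [if_neg (by omega), Nat.mod_eq_of_lt hy]
      · have hy2 : y < f₂ := by
          have := hy
          unfold ff at this
          split_ifs at this; omega
        by_cases h2 : (r : ℕ) < 2
        · have hx0 : x < f₀ := by
            have := hx
            unfold ff at this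
            split_ifs at this; omega
          refine ⟨Sum.inr (Sum.inl (⟨x, hx0⟩, ⟨y, hy2⟩)), Sum.inr (Sum.inl (⟨x, hx0⟩, ⟨y, hy2⟩)),
            rfl, ?_, ?_⟩
          · change (if (r : ℕ) < 2 then x else y) % ff m f₀ f₂ r = x
            rw [if_pos h2, Nat.mod_eq_of_lt hx]
          · change (if (r' : ℕ) < 2 then x else y) % ff m f₀ f₂ r' = y
            rw [if_neg h1, Nat.mod_eq_of_lt hy]
        · have hx2 : x < f₂ := by
            have := hx
            unfold ff at this
            split_ifs at this; omega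
          refine ⟨Sum.inr (Sum.inr ⟨(r, ⟨x, hx2⟩, ⟨y, hy2⟩), by omega⟩),
            Sum.inr (Sum.inr ⟨(r, ⟨x, hx2⟩, ⟨y, hy2⟩), by omega⟩), rfl, ?_, ?_⟩
          · change (if r = r then x else y) % ff m f₀ f₂ r = x
            rw [if_pos rfl, Nat.mod_eq_of_lt hx]
          · change (if r = r' then x else y) % ff m f₀ f₂ r' = y
            rw [if_neg (ne_of_lt hrr), Nat.mod_eq_of_lt hy]
    intro r r' hne x hx y hy
    rcases lt_or_gt_of_ne hne with h | h
    · obtain ⟨p, p', h1, h2, h3⟩ := key r r' h x hx y hy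
      exact ⟨Sum.inr p, Sum.inr p', h1, h2, h3⟩
    · obtain ⟨p, p', h1, h2, h3⟩ := key r' r h y hy x hx
      exact ⟨Sum.inr p', Sum.inr p, h1.symm, h3, h2⟩

end Vale.Agent.P181.RH.H467
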