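import Vale.Agent.P181.RH.H467.DesA
import Vale.Agent.P181.RH.H460.PeakRH
import Vale.Agent.P181.RG.H460.Ext

set_option autoImplicit false

/-!
# P181, RH: [DES]
-/

namespace Vale.Agent.P181.RH.H467

/-- **[DES]** -/
theorem des (hE : RG.ExtRG) (hP : PeakRH) : DesRH :=
  fun u m D1 D2 R2 R3 k f₀ f₂ F₀ F₂ T s e hN h1 h2 =>
    desB2 hE hP u m D1 D2 R2 R3 k f₀ f₂ F₀ F₂ T s e hN
      (desA2 hE u m D1 D2 R2 R3 k f₀ f₂ F₀ F₂ T s e hN h1 h2)

theorem desRH : DesRH := des RG.H460.ext H460.peakRH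

end Vale.Agent.P181.RH.H467
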