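import Vale.Agent.P181.RH.H467.DesB2
import Vale.Agent.P181.RG.H221.Cnt

set_option autoImplicit false

/-!
# P181, RH [DES-a]: the pattern of the free letters (copy of the file of helper935)
-/

namespace Vale.Agent.P181.RH.H467

open Finset Function Vale.Agent.P181.RH
open Vale.Agent.P181.RG (Lt Own Same Thin ExtRG)
open Vale.Agent.P181.RG.H221 (occ cnt sum_cnt occ_sum cnt_sum PairT frP cnt_frP occ_frP_le
  card_pair sum_fst)

/-- **[DES-a]** -/
def DesA2 : Prop :=
  ∀ (u m D1 D2 R2 R3 k f₀ f₂ F₀ F₂ T s : ℕ) (e : Fin u → ℕ),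
    NumD u m D1 D2 R2 R3 k f₀ f₂ F₀ F₂ T s →
    2 * ∑ i, e i = 4 * F₀ + 2 * k + 2 * ((m - 2) * F₂) + k * ((m - 2) * (m - 3)) →
    (∀ i, D1 + D2 + s + 2 * T ≤ e i) →
    Pat2 u m D1 D2 R2 R3 k f₀ f₂ T s e

/-- One free letter in every column, in the row `pos`. -/
def frG (u m S : ℕ) (pos : ℕ → ℕ → ℕ) (τ : Equiv.Perm (Fin u)) :
    Fin u × Fin S → Fin m → Option (Fin u) :=
  fun c r => if (r : ℕ) = pos (τ c.1) c.2 then some c.1 else none

theorem cnt_frG {u m S : ℕ} {pos : ℕ → ℕ → ℕ} (hpos : ∀ l s, pos l s < m)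
    (τ : Equiv.Perm (Fin u)) (i : Fin u) : cnt (frG u m S pos τ) i = S := by
  have h1 : ∀ c : Fin u × Fin S, (∑ r : Fin m, if frG u m S pos τ c r = some i then 1 else 0) =
      if c.1 = i then 1 else 0 := by
    intro c
    have hc := hpos (τ c.1) c.2
    rw [Finset.sum_eq_single (⟨pos (τ c.1) c.2, hc⟩ : Fin m)]
    · simp [frG]
    · intro r _ hr
      have h1 : (r : ℕ) ≠ pos (τ c.1) c.2 := fun h => hr (Fin.ext h)
      simp [frG, h1]
    · simp
  unfold cnt
  simp_rw [h1]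
  exact sum_fst _ i

theorem occ_frG {u m S : ℕ} {pos : ℕ → ℕ → ℕ} (τ : Equiv.Perm (Fin u)) (r : Fin m) :
    occ (frG u m S pos τ) r = occ (frG u m S pos 1) r := by
  unfold occ
  rw [Fintype.sum_prod_type, Fintype.sum_prod_type]
  rw [← Equiv.sum_comp τ (fun i => ∑ y : Fin S,
    if frG u m S pos 1 (i, y) r = none then 0 else 1)]
  refine Finset.sum_congr rfl fun i _ => Finset.sum_congr rfl fun y _ => ?_
  by_cases h : (r : ℕ) = pos (τ i) y
  · simp [frG, h]
  · simp [frG, h]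

theorem occ_frG_le {u m S : ℕ} {pos : ℕ → ℕ → ℕ} (τ : Equiv.Perm (Fin u)) (r : Fin m) :
    occ (frG u m S pos τ) r ≤ u * S := by
  unfold occ
  calc (∑ c : Fin u × Fin S, if frG u m S pos τ c r = none then 0 else 1) ≤
      ∑ c : Fin u × Fin S, 1 := by
        refine Finset.sum_le_sum fun c _ => ?_
        split_ifs <;> omega
    _ = u * S := by simp

theorem occ_zero {κ : Type} [Fintype κ] {u m : ℕ} {fr : κ → Fin m → Option (Fin u)} {r : Fin m}
    (h : ∀ c, fr c r = none) : occ fr r = 0 := by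
  simp [occ, h]

theorem cnt_zero {κ : Type} [Fintype κ] {u m : ℕ} {fr : κ → Fin m → Option (Fin u)} {i : Fin u}
    (h : ∀ c r, fr c r = none) : cnt fr i = 0 := by
  simp [cnt, h]

theorem occ_frG_zero {u m S : ℕ} {pos : ℕ → ℕ → ℕ} (τ : Equiv.Perm (Fin u)) (r : Fin m)
    (h : ∀ l s, (r : ℕ) ≠ pos l s) : occ (frG u m S pos τ) r = 0 :=
  occ_zero fun c => by simp [frG, h]

theorem occ_add {κ : Type} [Fintype κ] {u m : ℕ} (fr : κ → Fin m → Option (Fin u)) (r : Fin m) :
    (univ.filter fun c => fr c r = none).card + occ fr r = Fintype.card κ := by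
  rw [Finset.card_filter, occ, ← Finset.sum_add_distrib]
  calc (∑ c : κ, ((if fr c r = none then 1 else 0) + if fr c r = none then 0 else 1)) =
      ∑ c : κ, 1 := by
        refine Finset.sum_congr rfl fun c _ => ?_
        split_ifs <;> rfl
    _ = Fintype.card κ := by simp

theorem form_add {u m S : ℕ} {pos : ℕ → ℕ → ℕ} (τ : Equiv.Perm (Fin u)) (r : Fin m) :
    (univ.filter fun p : Fin u × Fin S => (r : ℕ) ≠ pos (τ p.1) p.2).card +
      occ (frG u m S pos 1) r = u * S := by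
  have h := occ_add (frG u m S pos τ) r
  rw [occ_frG, Fintype.card_prod, Fintype.card_fin, Fintype.card_fin] at h
  rw [← h]
  congr 2
  ext p
  simp [frG]

/-- The fill columns. -/
def frL {u m : ℕ} (x : Fin m → ℕ) (g : (Σ r : Fin m, Fin (x r)) → Fin u) :
    (Σ r : Fin m, Fin (x r)) → Fin m → Option (Fin u) :=
  fun c r => if r = c.1 then some (g c) else none

theorem occ_frL {u m : ℕ} (x : Fin m → ℕ) (g : (Σ r : Fin m, Fin (x r)) → Fin u) (r : Fin m) :
    occ (frL x g) r = x r := by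
  unfold occ
  rw [Fintype.sum_sigma, Finset.sum_eq_single r]
  · simp [frL]
  · intro r' _ hr
    simp [frL, hr.symm]
  · simp

theorem cnt_frL {u m : ℕ} (x : Fin m → ℕ) (g : (Σ r : Fin m, Fin (x r)) → Fin u) (i : Fin u) :
    cnt (frL x g) i = (univ.filter fun c => g c = i).card := by
  rw [cnt, Finset.card_filter]
  refine Finset.sum_congr rfl fun c _ => ?_
  rw [Finset.sum_eq_single c.1]
  · simp [frL]
  · intro r _ hr
    simp [frL, hr]
  · simp

theorem occ_sub {κ : Type} [Fintype κ] {u m : ℕ} (fr : κ → Fin m → Option (Fin u)) (r : Fin m)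
    (p : κ → Prop) [DecidablePred p] :
    occ (fun c : {c // p c} => fr c) r + occ (fun c : {c // ¬ p c} => fr c) r = occ fr r :=
  Fintype.sum_subtype_add_sum_subtype p fun c => if fr c r = none then 0 else 1

theorem cnt_sub {κ : Type} [Fintype κ] {u m : ℕ} (fr : κ → Fin m → Option (Fin u)) (i : Fin u)
    (p : κ → Prop) [DecidablePred p] :
    cnt (fun c : {c // p c} => fr c) i + cnt (fun c : {c // ¬ p c} => fr c) i = cnt fr i :=
  Fintype.sum_subtype_add_sum_subtype p fun c => ∑ r, if fr c r = some i then 1 else 0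

theorem card_sub {m : ℕ} (x : Fin m → ℕ) (p : ℕ → Prop) [DecidablePred p] :
    Fintype.card {c : Σ r : Fin m, Fin (x r) // p c.1} = ∑ r : Fin m, if p r then x r else 0 := by
  rw [Fintype.card_subtype, Finset.card_filter, Fintype.sum_sigma]
  refine Finset.sum_congr rfl fun r _ => ?_
  split_ifs <;> simp

theorem occ_equiv {κ κ' : Type} [Fintype κ] [Fintype κ'] {u m : ℕ} (ε : κ' ≃ κ)
    (fr : κ → Fin m → Option (Fin u)) (r : Fin m) : occ (fun c => fr (ε c)) r = occ fr r :=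
  Equiv.sum_comp ε fun c => if fr c r = none then 0 else 1

theorem cnt_equiv {κ κ' : Type} [Fintype κ] [Fintype κ'] {u m : ℕ} (ε : κ' ≃ κ)
    (fr : κ → Fin m → Option (Fin u)) (i : Fin u) : cnt (fun c => fr (ε c)) i = cnt fr i :=
  Equiv.sum_comp ε fun c => ∑ r, if fr c r = some i then 1 else 0

theorem thin_one {u m : ℕ} (g : Fin m → Option (Fin u))
    (h : ∀ r r', g r ≠ none → g r' ≠ none → r = r') : Thin g := Or.inl h

theorem thin_frG {u m S : ℕ} {pos : ℕ → ℕ → ℕ} (τ : Equiv.Perm (Fin u)) (c : Fin u × Fin S) :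
    Thin (frG u m S pos τ c) := by
  refine thin_one _ fun r r' h1 h2 => ?_
  simp only [frG, ne_eq, ite_eq_right_iff, reduceCtorEq, imp_false, not_not] at h1 h2
  exact Fin.ext (h1.trans h2.symm)

theorem thin_none {u m : ℕ} : Thin (fun _ : Fin m => (none : Option (Fin u))) :=
  thin_one _ fun _ _ h1 _ => absurd rfl h1

theorem thin_frL {u m : ℕ} (x : Fin m → ℕ) (g : (Σ r : Fin m, Fin (x r)) → Fin u) (c) :
    Thin (frL x g c) := by
  refine thin_one _ fun r r' h1 h2 => ?_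
  simp only [frL, ne_eq, ite_eq_right_iff, reduceCtorEq, imp_false, not_not] at h1 h2
  rw [h1, h2]

/-- The number of free letters of a row. -/
def fre (k F₀ F₂ r : ℕ) : ℕ := if r < 2 then F₀ + r * k else F₂ + (r - 2) * k

theorem sum_fre {m k F₀ F₂ : ℕ} (hm : 3 ≤ m) :
    2 * ∑ r : Fin m, fre k F₀ F₂ r =
      4 * F₀ + 2 * k + 2 * ((m - 2) * F₂) + k * ((m - 2) * (m - 3)) := by
  obtain ⟨n, rfl⟩ : ∃ n, m = n + 2 := ⟨m - 2, by omega⟩
  rw [Fin.sum_univ_succ, Fin.sum_univ_succ]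
  have h1 : ∀ i : Fin n, fre k F₀ F₂ ((i.succ.succ : Fin (n + 2)) : ℕ) = F₂ + (i : ℕ) * k := by
    intro i
    simp [fre]
  rw [Finset.sum_congr rfl fun i _ => h1 i, Finset.sum_add_distrib, ← Finset.sum_mul]
  have h2 : (∑ i : Fin n, (i : ℕ)) * 2 = n * (n - 1) := by
    rw [Fin.sum_univ_eq_sum_range (fun r => r) n, Finset.sum_range_id_mul_two]
  have h3 : n + 2 - 2 = n := by omega
  have h4 : n + 2 - 3 = n - 1 := by omega
  rw [h3, h4, ← h2]
  simp [fre]
  ring

theorem sum_fre2 {m k F₀ F₂ : ℕ} (hm : 3 ≤ m) :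
    (∑ r : Fin m, if (r : ℕ) < 2 then fre k F₀ F₂ r else 0) = 2 * F₀ + k := by
  obtain ⟨n, rfl⟩ : ∃ n, m = n + 2 := ⟨m - 2, by omega⟩
  rw [Fin.sum_univ_succ, Fin.sum_univ_succ]
  simp [fre]
  ring

theorem sum_fre3 {m k F₀ F₂ : ℕ} :
    (∑ r : Fin m, if ¬ (r : ℕ) < 2 then fre k F₀ F₂ r else 0) ≤ m * F₂ + k * m ^ 2 := by
  calc (∑ r : Fin m, if ¬ (r : ℕ) < 2 then fre k F₀ F₂ r else 0) ≤
      ∑ _r : Fin m, (F₂ + m * k) := by
        refine Finset.sum_le_sum fun r _ => ?_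
        have hr := r.2
        by_cases h : (r : ℕ) < 2
        · rw [if_neg (not_not.2 h)]
          exact Nat.zero_le _
        · rw [if_pos h, fre, if_neg h]
          exact Nat.add_le_add_left (Nat.mul_le_mul_right _ (by omega)) _
    _ = m * F₂ + k * m ^ 2 := by
        simp
        ring

theorem desA2 (hE : ExtRG) : DesA2 := by
  intro u m D1 D2 R2 R3 k f₀ f₂ F₀ F₂ T s e hN he hei
  obtain ⟨hm, hu, hs, -, hR2, hR3, hF0, hF2, hb2, hb3, -, -, -, hTm, -, hff⟩ := hN
  classical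
  have p1 : ∀ l s, al1 D2 l s < m := by
    intro l s; unfold al1; split_ifs <;> omega
  have p2 : ∀ l s, al2 D2 l s < m := by
    intro l s; unfold al2; split_ifs <;> omega
  have q0 : ∀ _l _s : ℕ, 0 < m := fun _ _ => by omega
  have q1 : ∀ _l _s : ℕ, 1 < m := fun _ _ => by omega
  obtain ⟨U, hU⟩ : ∃ U : Fin m → ℕ, ∀ r, U r = occ (frG u m D1 (al1 D2) 1) r +
      occ (frG u m D2 (al2 D2) 1) r + occ (frP u m s) r +
      occ (frG u m T (fun _ _ => 0) 1) r + occ (frG u m T (fun _ _ => 1) 1) r :=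
    ⟨_, fun _ => rfl⟩
  have z1 : ∀ r : Fin m, ¬ (r : ℕ) < 2 → occ (frG u m D1 (al1 D2) 1) r = 0 := by
    intro r hr
    refine occ_frG_zero _ _ fun l s => ?_
    unfold al1
    split_ifs <;> omega
  have z2 : ∀ r : Fin m, ¬ (r : ℕ) < 2 → ∀ c, frP u m s c r = none := by
    intro r hr c
    unfold frP
    rw [if_neg (by omega), if_neg (by omega)]
  have z3 : ∀ r : Fin m, ¬ (r : ℕ) < 2 → occ (frG u m T (fun _ _ => 0) 1) r = 0 := by
    intro r hr
    exact occ_frG_zero _ _ fun l s => by omega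
  have z4 : ∀ r : Fin m, ¬ (r : ℕ) < 2 → occ (frG u m T (fun _ _ => 1) 1) r = 0 := by
    intro r hr
    exact occ_frG_zero _ _ fun l s => by omega
  have hx : ∀ r : Fin m, ∃ x : ℕ, x + U r = fre k F₀ F₂ r := by
    intro r
    have h1 := occ_frG_le (m := m) (S := D1) (pos := al1 D2) (1 : Equiv.Perm (Fin u)) r
    have h2 := occ_frG_le (m := m) (S := D2) (pos := al2 D2) (1 : Equiv.Perm (Fin u)) r
    have h3 := (occ_frP_le (u := u) (s := s) r).trans (card_pair hs)
    have h4 := occ_frG_le (m := m) (S := T) (pos := fun _ _ => 0) (1 : Equiv.Perm (Fin u)) r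
    have h5 := occ_frG_le (m := m) (S := T) (pos := fun _ _ => 1) (1 : Equiv.Perm (Fin u)) r
    have h6 : u * (D1 + D2 + s + 2 * T) = u * D1 + u * D2 + u * s + u * T + u * T := by ring
    by_cases hr : (r : ℕ) < 2
    · have h7 : F₀ ≤ fre k F₀ F₂ r := by rw [fre, if_pos hr]; exact Nat.le_add_right _ _
      exact ⟨fre k F₀ F₂ r - U r, by rw [hU]; omega⟩
    · have h7 : F₂ ≤ fre k F₀ F₂ r := by rw [fre, if_neg hr]; exact Nat.le_add_right _ _
      have h8 := z1 r hr
      have h9 := occ_zero (z2 r hr)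
      have h10 := z3 r hr
      have h11 := z4 r hr
      exact ⟨fre k F₀ F₂ r - U r, by rw [hU]; omega⟩
  choose x hx using hx
  have hy : ∀ i : Fin u, ∃ y : ℕ, y + (D1 + D2 + cnt (frP u m s) i + T + T) = e i := by
    intro i
    have h1 := cnt_frP hs hm i
    have h2 := hei i
    exact ⟨e i - (D1 + D2 + cnt (frP u m s) i + T + T), by omega⟩
  choose y hy using hy
  have hxle : ∀ r, x r ≤ fre k F₀ F₂ r := fun r => by rw [← hx r]; exact Nat.le_add_right _ _
  have hxy : ∑ i, y i = ∑ r, x r := by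
    have h1 : ∑ r, x r + ∑ r, U r = ∑ r : Fin m, fre k F₀ F₂ r := by
      rw [← Finset.sum_add_distrib]
      exact Finset.sum_congr rfl fun r _ => hx r
    have h2 : ∑ i, y i + ∑ i : Fin u, (D1 + D2 + cnt (frP u m s) i + T + T) = ∑ i, e i := by
      rw [← Finset.sum_add_distrib]
      exact Finset.sum_congr rfl fun i _ => hy i
    have h3 : ∑ r, U r = ∑ i : Fin u, (D1 + D2 + cnt (frP u m s) i + T + T) := by
      rw [Finset.sum_congr rfl fun r _ => hU r]
      simp only [Finset.sum_add_distrib]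
      rw [← sum_cnt, ← sum_cnt, ← sum_cnt, ← sum_cnt, ← sum_cnt,
        Finset.sum_congr rfl fun i _ => cnt_frG p1 1 i,
        Finset.sum_congr rfl fun i _ => cnt_frG p2 1 i,
        Finset.sum_congr rfl fun i _ => cnt_frG (pos := fun _ _ => 0) q0 1 i,
        Finset.sum_congr rfl fun i _ => cnt_frG (pos := fun _ _ => 1) q1 1 i]
    have h4 := sum_fre (k := k) (F₀ := F₀) (F₂ := F₂) hm
    omega
  obtain ⟨g, -, hg⟩ := hE (Σ r : Fin m, Fin (x r)) (Fin u) y ∅ (fun _ => ⟨0, hu⟩)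
    (by rw [hxy]; simp) (fun i => by simp)
  -- the two kinds of fill columns
  have hcA : Fintype.card {c : Σ r : Fin m, Fin (x r) // (c.1 : ℕ) < 2} ≤ 2 * F₀ + k := by
    rw [card_sub x (fun r => r < 2), ← sum_fre2 (k := k) (F₀ := F₀) (F₂ := F₂) hm]
    refine Finset.sum_le_sum fun r _ => ?_
    split_ifs
    · exact hxle r
    · exact le_rfl
  have hcB : Fintype.card {c : Σ r : Fin m, Fin (x r) // ¬ (c.1 : ℕ) < 2} ≤
      m * F₂ + k * m ^ 2 := by
    rw [card_sub x (fun r => ¬ r < 2)]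
    refine le_trans ?_ (sum_fre3 (m := m) (k := k) (F₀ := F₀) (F₂ := F₂))
    refine Finset.sum_le_sum fun r _ => ?_
    by_cases h : ¬ (r : ℕ) < 2
    · rw [if_pos h, if_pos h]; exact hxle r
    · rw [if_neg h, if_neg h]
  have hcP := card_pair (u := u) hs
  set cA := Fintype.card {c : Σ r : Fin m, Fin (x r) // (c.1 : ℕ) < 2} with hcA'
  set cB := Fintype.card {c : Σ r : Fin m, Fin (x r) // ¬ (c.1 : ℕ) < 2} with hcB'
  have hJ2 : Fintype.card (Fin R2) = Fintype.card (PairT u s ⊕ ((Fin u × Fin T) ⊕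
      ((Fin f₀ × Fin f₀) ⊕ ({c : Σ r : Fin m, Fin (x r) // (c.1 : ℕ) < 2} ⊕
      Fin (R2 - (Fintype.card (PairT u s) + (u * T + (f₀ * f₀ + cA)))))))) := by
    simp only [Fintype.card_sum, Fintype.card_prod, Fintype.card_fin, ← hcA']
    have h1 : u * (s + T) = u * s + u * T := by ring
    have h2 : f₀ ^ 2 = f₀ * f₀ := by ring
    omega
  have hJ3 : Fintype.card (Fin R3) = Fintype.card ((Fin u × Fin T) ⊕
      (((Fin f₀ × Fin f₂) ⊕ (Fin m × Fin f₂ × Fin f₂)) ⊕
      ({c : Σ r : Fin m, Fin (x r) // ¬ (c.1 : ℕ) < 2} ⊕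
      Fin (R3 - (u * T + ((f₀ * f₂ + m * (f₂ * f₂)) + cB)))))) := by
    simp only [Fintype.card_sum, Fintype.card_prod, Fintype.card_fin, ← hcB']
    have h2 : m * f₂ ^ 2 = m * (f₂ * f₂) := by ring
    omega
  let ε2 := Fintype.equivOfCardEq hJ2
  let ε3 := Fintype.equivOfCardEq hJ3
  let nn : ∀ κ : Type, κ → Fin m → Option (Fin u) := fun _ _ _ => none
  let gA : {c : Σ r : Fin m, Fin (x r) // (c.1 : ℕ) < 2} → Fin m → Option (Fin u) :=
    fun c => frL x g c
  let gB : {c : Σ r : Fin m, Fin (x r) // ¬ (c.1 : ℕ) < 2} → Fin m → Option (Fin u) :=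
    fun c => frL x g c
  obtain ⟨fr2, hfr2⟩ : ∃ fr2 : (PairT u s ⊕ ((Fin u × Fin T) ⊕
      ((Fin f₀ × Fin f₀) ⊕ ({c : Σ r : Fin m, Fin (x r) // (c.1 : ℕ) < 2} ⊕
      Fin (R2 - (Fintype.card (PairT u s) + (u * T + (f₀ * f₀ + cA)))))))) →
      Fin m → Option (Fin u), fr2 = Sum.elim (frP u m s)
        (Sum.elim (frG u m T (fun _ _ => 1) 1) (Sum.elim (nn _) (Sum.elim gA (nn _)))) :=
    ⟨_, rfl⟩
  obtain ⟨fr3, hfr3⟩ : ∃ fr3 : ((Fin u × Fin T) ⊕
      (((Fin f₀ × Fin f₂) ⊕ (Fin m × Fin f₂ × Fin f₂)) ⊕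
      ({c : Σ r : Fin m, Fin (x r) // ¬ (c.1 : ℕ) < 2} ⊕
      Fin (R3 - (u * T + ((f₀ * f₂ + m * (f₂ * f₂)) + cB)))))) →
      Fin m → Option (Fin u), fr3 = Sum.elim (frG u m T (fun _ _ => 0) 1)
        (Sum.elim (nn _) (Sum.elim gB (nn _))) := ⟨_, rfl⟩
  have hAB : ∀ r : Fin m, occ gA r + occ gB r = x r := by
    intro r
    rw [← occ_frL x g r, ← occ_sub (frL x g) r (fun c => (c.1 : ℕ) < 2)]
  have hA0 : ∀ r : Fin m, ¬ (r : ℕ) < 2 →
      ∀ c : {c : Σ r : Fin m, Fin (x r) // (c.1 : ℕ) < 2}, gA c r = none := by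
    intro r hr c
    have h1 := c.2
    refine if_neg ?_
    intro h
    rw [h] at hr
    exact hr h1
  have cAB : ∀ i : Fin u, cnt gA i + cnt gB i = y i := by
    intro i
    rw [← hg i, ← cnt_frL x g i, ← cnt_sub (frL x g) i (fun c => (c.1 : ℕ) < 2)]
  have n0 : ∀ (κ : Type) [Fintype κ] (r : Fin m), occ (nn κ) r = 0 :=
    fun κ _ r => occ_zero fun _ => rfl
  have n1 : ∀ (κ : Type) [Fintype κ] (i : Fin u), cnt (nn κ) i = 0 :=
    fun κ _ i => cnt_zero fun _ _ => rfl
  have o2 : ∀ r, occ fr2 r = occ (frP u m s) r + (occ (frG u m T (fun _ _ => 1) 1) r +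
      occ gA r) := by
    intro r
    rw [hfr2, occ_sum, occ_sum, occ_sum, occ_sum, n0, n0]
    ring
  have o3 : ∀ r, occ fr3 r = occ (frG u m T (fun _ _ => 0) 1) r + occ gB r := by
    intro r
    rw [hfr3, occ_sum, occ_sum, occ_sum, n0, n0]
    ring
  have c2 : ∀ i, cnt fr2 i = cnt (frP u m s) i + (T + cnt gA i) := by
    intro i
    rw [hfr2, cnt_sum, cnt_sum, cnt_sum, cnt_sum, n1, n1, cnt_frG (pos := fun _ _ => 1) q1]
    ring
  have c3 : ∀ i, cnt fr3 i = T + cnt gB i := by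
    intro i
    rw [hfr3, cnt_sum, cnt_sum, cnt_sum, n1, n1, cnt_frG (pos := fun _ _ => 0) q0]
    ring
  have t2 : ∀ d, Thin (fr2 d) := by
    rw [hfr2]
    rintro (p | c | c | c | c)
    · exact Or.inr ⟨p.1.1, p.1.2, ne_of_lt p.2.1, fun r => rfl⟩
    · exact thin_frG (pos := fun _ _ => 1) 1 c
    · exact thin_none
    · exact thin_frL x g c
    · exact thin_none
  have t3 : ∀ d, Thin (fr3 d) := by
    rw [hfr3]
    rintro (c | c | c | c)
    · exact thin_frG (pos := fun _ _ => 0) 1 c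
    · exact thin_none
    · exact thin_frL x g c
    · exact thin_none
  refine ⟨Sum.elim (fun c => fr2 (ε2 c)) (fun c => fr3 (ε3 c)), ?_, ?_, ?_, ?_, ?_, ?_, ?_, ?_,
    ?_, ?_⟩
  · rintro (c | c)
    · exact t2 _
    · exact t3 _
  · intro c r hr
    have hr' : ¬ (r : ℕ) < 2 := by omega
    have h1 : ∀ d, fr2 d r = none := by
      rw [hfr2]
      rintro (p | c | c | c | c)
      · exact z2 r hr' p
      · simp only [Sum.elim_inl, Sum.elim_inr, frG]
        exact if_neg (by omega)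
      · rfl
      · exact hA0 r hr' c
      · rfl
    exact h1 _
  · intro i
    have h1 : (∑ c, (univ.filter fun r : Fin m =>
        (Sum.elim (fun c => fr2 (ε2 c)) (fun c => fr3 (ε3 c)) :
          Fin R2 ⊕ Fin R3 → Fin m → Option (Fin u)) c r = some i).card) =
        cnt (Sum.elim (fun c => fr2 (ε2 c)) (fun c => fr3 (ε3 c)) :
          Fin R2 ⊕ Fin R3 → Fin m → Option (Fin u)) i := by
      unfold cnt
      refine Finset.sum_congr rfl fun c _ => ?_
      rw [Finset.card_filter]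
    rw [h1, cnt_sum, cnt_equiv ε2 fr2, cnt_equiv ε3 fr3, c2, c3, ← hy i, ← cAB i]
    ring
  · intro τ r hr
    have h1 := form_add (S := D1) (pos := al1 D2) τ r
    have h2 := form_add (S := D2) (pos := al2 D2) τ r
    have h3 := occ_add (Sum.elim (fun c => fr2 (ε2 c)) (fun c => fr3 (ε3 c)) :
          Fin R2 ⊕ Fin R3 → Fin m → Option (Fin u)) r
    rw [occ_sum, occ_equiv ε2 fr2, occ_equiv ε3 fr3, o2, o3, Fintype.card_sum, Fintype.card_fin,
      Fintype.card_fin] at h3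
    have h4 := hx r
    have h5 := hAB r
    rw [hU, fre, if_pos hr] at h4
    rw [ff, if_pos hr, Nat.sub_mul]
    have h6 : (r : ℕ) * k ≤ f₀ * k := Nat.mul_le_mul_right _ (by omega)
    omega
  · intro τ r hr
    have hr' : ¬ (r : ℕ) < 2 := by omega
    have h2 := form_add (S := D2) (pos := al2 D2) τ r
    have h3 := occ_add (fun c => fr3 (ε3 c)) r
    rw [occ_equiv ε3 fr3, o3, Fintype.card_fin] at h3
    have h4 := hx r
    have h5 := hAB r
    have h7 := z1 r hr'
    have h8 := occ_zero (z2 r hr')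
    have h9 := z3 r hr'
    have h10 := z4 r hr'
    have h11 := occ_zero (hA0 r hr')
    rw [hU, fre, if_neg hr'] at h4
    rw [ff, if_neg hr', Nat.sub_mul]
    have hrm := r.2
    have h6 : ((r : ℕ) - 2) * k ≤ f₂ * k := Nat.mul_le_mul_right _ (by omega)
    have h12 : ∀ inst : DecidablePred fun c : Fin R3 => fr3 (ε3 c) r = none,
        (@Finset.filter _ (fun c : Fin R3 => fr3 (ε3 c) r = none) inst univ).card =
          (univ.filter fun c : Fin R3 => fr3 (ε3 c) r = none).card := by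
      intro inst
      congr
    change _ + (univ.filter fun c : Fin R3 => fr3 (ε3 c) r = none).card = _
    rw [h12] at h3 ⊢
    omega
  · intro i j hij hgr
    refine ⟨ε2.symm (Sum.inl ⟨(i, j), hij, hgr⟩), fun r => ?_⟩
    simp only [Sum.elim_inl, Equiv.apply_symm_apply]
    rw [hfr2]
    rfl
  · refine ⟨fun p => ε2.symm (Sum.inr (Sum.inl p)), fun p q h => ?_, fun p r => ?_⟩
    · simpa using h
    · simp only [Sum.elim_inl, Equiv.apply_symm_apply]
      rw [hfr2]
      rfl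
  · refine ⟨fun p => ε3.symm (Sum.inl p), fun p q h => ?_, fun p r => ?_⟩
    · simpa using h
    · simp only [Sum.elim_inr, Equiv.apply_symm_apply]
      rw [hfr3]
      rfl
  · refine ⟨fun p => ε2.symm (Sum.inr (Sum.inr (Sum.inl p))), fun p q h => ?_, fun p r => ?_⟩
    · simpa using h
    · simp only [Sum.elim_inl, Equiv.apply_symm_apply]
      rw [hfr2]
      rfl
  · refine ⟨fun p => ε3.symm (Sum.inr (Sum.inl p)), fun p q h => ?_, fun p r => ?_⟩
    · simpa using h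
    · simp only [Sum.elim_inr, Equiv.apply_symm_apply]
      rw [hfr3]
      rfl

end Vale.Agent.P181.RH.H467
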