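import Vale.Agent.P181.RH.Defs
import Vale.Agent.P181.RG.H467.DesB

set_option autoImplicit false

/-!
# P181, RH: the class letters for columns of any lengths, by [EXT] and [PEAK]
-/

namespace Vale.Agent.P181.RH.H467

open Finset Function Vale.Agent.P181 Vale.Agent.P181.RH
open Vale.Agent.P181.RG (Lt Own Same Thin)
open Vale.Agent.P181.RG.H467 (row)

/-- The class letters, from a pattern of the free letters (`fr`) and prescribed letters: in the row
`r` the slots `ε r p` (`p : P r`) carry the letter number `cd r p` modulo `f r`. -/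
theorem desG (hE : RG.ExtRG) (hP : PeakRH) (u m S R k T g : ℕ) (f : Fin m → ℕ) (lf : Fin S → ℕ)
    (lr : Fin R → ℕ) (pos : ℕ → Fin S → ℕ) (e : Fin u → ℕ) (fr : Fin R → Fin m → Option (Fin u))
    (grp : Fin u → Fin g) (hu : 1 ≤ u) (hgT : g + 1 ≤ T) (hTf : ∀ r, T ≤ f r) (hf : StrictAnti f)
    (hlf : ∀ s, lf s ≤ m) (hpos : ∀ l, l < u → ∀ s, pos l s < lf s) (hthin : ∀ c, Thin (fr c))
    (hcnt : ∀ i, S + ∑ c, (univ.filter fun r : Fin m => (r : ℕ) < lr c ∧ fr c r = some i).card = e i)
    (hslots : ∀ (τ : Equiv.Perm (Fin u)) (r : Fin m),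
      (univ.filter fun p : Fin u × Fin S => (r : ℕ) < lf p.2 ∧ (r : ℕ) ≠ pos (τ p.1) p.2).card +
        (univ.filter fun c => (r : ℕ) < lr c ∧ fr c r = none).card = f r * k)
    (hpair : ∀ i j : Fin u, i < j → grp i = grp j → ∃ (c : Fin R) (r r' : Fin m), r ≠ r' ∧
      (r : ℕ) < lr c ∧ (r' : ℕ) < lr c ∧ fr c r = some i ∧ fr c r' = some j)
    (P : Fin m → Type) [∀ r, Fintype (P r)] (ε : ∀ r, P r → Fin R) (hε : ∀ r, Injective (ε r))
    (hεr : ∀ (r : Fin m) (p : P r), (r : ℕ) < lr (ε r p) ∧ fr (ε r p) r = none) (cd : ∀ r, P r → ℕ)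
    (hcd : ∀ r x, (univ.filter fun p : P r => cd r p % f r = x).card ≤ k)
    (hfree : ∀ (i : Fin u) (r : Fin m), ∃ p : Fin T → P r,
      Injective (fun t => cd r (p t) % f r) ∧ ∀ t, ∃ ro : Fin m, ro ≠ r ∧
        (ro : ℕ) < lr (ε r (p t)) ∧ fr (ε r (p t)) ro = some i)
    (hall : ∀ (r r' : Fin m), r ≠ r' → ∀ x, x < f r → ∀ y, y < f r' →
      ∃ (p : P r) (p' : P r'), ε r p = ε r' p' ∧ cd r p % f r = x ∧ cd r' p' % f r' = y) :
    LDes u m S R k f lf lr pos e := by
  classical
  have hfpos : ∀ r : Fin m, 0 < f r := fun r => by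
    have := hTf r
    omega
  let own : Equiv.Perm (Fin u) → Fin m → (Fin u × Fin S) ⊕ Fin R → Prop := fun τ r c =>
    Sum.elim (fun p : Fin u × Fin S => (r : ℕ) < lf p.2 ∧ (r : ℕ) ≠ pos (τ p.1) p.2)
      (fun c => (r : ℕ) < lr c ∧ fr c r = none) c
  have hA : ∀ τ r, (univ.filter (own τ r)).card = f r * k := by
    intro τ r
    rw [← hslots τ r, card_filter, card_filter, card_filter, Fintype.sum_sum_type]
    exact congrArg₂ (· + ·) (sum_congr rfl fun p _ => if_congr Iff.rfl rfl rfl)
      (sum_congr rfl fun c _ => if_congr Iff.rfl rfl rfl)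
  have hrow : ∀ (τ : Equiv.Perm (Fin u)) (r : Fin m), ∃ g : (Fin u × Fin S) ⊕ Fin R → Fin (f r),
      (∀ p, g (Sum.inr (ε r p)) = ⟨cd r p % f r, Nat.mod_lt _ (hfpos r)⟩) ∧
        ∀ x, ((univ.filter (own τ r)).filter fun c => g c = x).card = k := by
    intro τ r
    refine row (L := Fin (f r)) (P := P r) hE (univ.filter (own τ r)) (fun p => Sum.inr (ε r p))
      (Sum.inr_injective.comp (hε r)) (fun p => ?_)
      (fun p => ⟨cd r p % f r, Nat.mod_lt _ (hfpos r)⟩) ⟨0, hfpos r⟩ (fun _ => k) ?_ ?_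
    · rw [mem_filter]
      exact ⟨mem_univ _, hεr r p⟩
    · rw [hA, sum_const, card_univ, Fintype.card_fin, smul_eq_mul]
    · intro x
      refine le_trans (le_of_eq ?_) (hcd r x)
      congr 1
      ext p
      rw [mem_filter, mem_filter]
      exact and_congr Iff.rfl Fin.ext_iff
  choose g' hg1 hg2 using hrow
  let fl : Fin m → (Fin u × Fin S) ⊕ Fin R → Fin u := fun r c =>
    Sum.elim (fun p : Fin u × Fin S => p.1) (fun c => (fr c r).getD ⟨0, hu⟩) c
  let K : Equiv.Perm (Fin u) → (Fin u × Fin S) ⊕ Fin R → Fin m → Lt u m f := fun τ c r =>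
    if own τ r c then Sum.inr ⟨r, g' τ r c⟩ else Sum.inl (fl r c)
  have hKo : ∀ τ c r, own τ r c → K τ c r = Sum.inr ⟨r, g' τ r c⟩ := fun τ c r h => if_pos h
  have hKn : ∀ τ c r, ¬ own τ r c → K τ c r = Sum.inl (fl r c) := fun τ c r h => if_neg h
  have hKs : ∀ τ c r i, fr c r = some i → K τ (Sum.inr c) r = Sum.inl i := by
    intro τ c r i hi
    rw [hKn]
    · change Sum.inl ((fr c r).getD ⟨0, hu⟩) = _
      rw [hi]
      rfl
    · intro h
      have h' : fr c r = none := h.2
      rw [hi] at h'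
      cases h'
  have hKN : ∀ τ c (r : Fin m), (r : ℕ) < lr c → fr c r = none →
      K τ (Sum.inr c) r = Sum.inr ⟨r, g' τ r (Sum.inr c)⟩ :=
    fun τ c r h0 h => hKo τ (Sum.inr c) r ⟨h0, h⟩
  have hKp : ∀ τ (r : Fin m) (p : P r), K τ (Sum.inr (ε r p)) r =
      Sum.inr ⟨r, ⟨cd r p % f r, Nat.mod_lt _ (hfpos r)⟩⟩ := by
    intro τ r p
    rw [hKN τ _ r (hεr r p).1 (hεr r p).2, hg1]
  refine ⟨fr, K, hthin, ?_, ?_, ?_, ?_, ?_⟩
  · intro τ i t r hr
    split_ifs with h
    · exact hKn τ (Sum.inl (i, t)) r (fun h' => h'.2 h)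
    · exact ⟨_, hKo τ (Sum.inl (i, t)) r ⟨hr, h⟩⟩
  · intro τ c r hr
    exact ⟨fun i hi => hKs τ c r i hi, fun h => ⟨_, hKN τ c r hr h⟩⟩
  · intro τ i
    rw [Fintype.sum_sum_type, ← hcnt i]
    congr 1
    · have h1 : ∀ p : Fin u × Fin S, (univ.filter fun r : Fin m =>
          (r : ℕ) < ln lf lr (Sum.inl p) ∧ K τ (Sum.inl p) r = Sum.inl i).card =
          if p.1 = i then 1 else 0 := by
        intro p
        have hps := hpos (τ p.1) (τ p.1).2 p.2
        by_cases hp : p.1 = i
        · rw [if_pos hp, card_eq_one]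
          refine ⟨⟨pos (τ p.1) p.2, lt_of_lt_of_le hps (hlf p.2)⟩, ?_⟩
          ext r
          rw [mem_filter, mem_singleton]
          constructor
          · rintro ⟨_, hl, h⟩
            by_cases ho : own τ r (Sum.inl p)
            · rw [hKo _ _ _ ho] at h
              cases h
            · apply Fin.ext
              by_contra hne
              exact ho ⟨hl, hne⟩
          · intro h
            refine ⟨mem_univ _, ?_, ?_⟩
            · rw [h]
              exact hps
            · rw [hKn]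
              · exact congrArg Sum.inl hp
              · intro ho
                exact ho.2 (congrArg Fin.val h)
        · rw [if_neg hp, card_eq_zero, filter_eq_empty_iff]
          rintro r _ ⟨_, h⟩
          by_cases ho : own τ r (Sum.inl p)
          · rw [hKo _ _ _ ho] at h
            cases h
          · rw [hKn _ _ _ ho] at h
            exact hp (Sum.inl.inj h)
      rw [sum_congr rfl fun p _ => h1 p, Fintype.sum_prod_type, sum_eq_single i]
      · rw [sum_congr rfl fun y _ => if_pos rfl, sum_const, card_univ, Fintype.card_fin,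
          smul_eq_mul, mul_one]
      · intro x _ hx
        exact sum_eq_zero fun y _ => if_neg hx
      · intro h
        exact absurd (mem_univ _) h
    · refine sum_congr rfl fun c _ => ?_
      congr 1
      ext r
      rw [mem_filter, mem_filter]
      refine and_congr Iff.rfl ?_
      change ((r : ℕ) < lr c ∧ _) ↔ _
      refine and_congr_right fun hr => ?_
      rcases hfr : fr c r with _ | j
      · rw [hKN τ c r hr hfr]
        constructor
        · intro h
          cases h
        · intro h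
          cases h
      · rw [hKs τ c r j hfr]
        constructor
        · intro h
          rw [Sum.inl.inj h]
        · intro h
          rw [Option.some.inj h]
  · rintro τ ⟨r', j⟩
    rw [← hg2 τ r' j, filter_filter, card_filter]
    refine sum_congr rfl fun c _ => ?_
    have hiff : ∀ r : Fin m, ((r : ℕ) < ln lf lr c ∧ K τ c r = Sum.inr ⟨r', j⟩) ↔
        r = r' ∧ (own τ r' c ∧ g' τ r' c = j) := by
      intro r
      constructor
      · rintro ⟨_, h⟩
        by_cases ho : own τ r c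
        · rw [hKo _ _ _ ho] at h
          have h' := Sum.inr.inj h
          have hr : r = r' := congrArg Sigma.fst h'
          subst hr
          exact ⟨rfl, ho, eq_of_heq (Sigma.mk.inj h').2⟩
        · rw [hKn _ _ _ ho] at h
          cases h
      · rintro ⟨rfl, ho, hj⟩
        refine ⟨?_, ?_⟩
        · rcases c with p | c
          · exact ho.1
          · exact ho.1
        · rw [hKo _ _ _ ho, hj]
    split_ifs with h
    · rw [card_eq_one]
      refine ⟨r', ?_⟩
      ext r
      rw [mem_filter, mem_singleton, hiff]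
      exact ⟨fun h' => h'.2.1, fun h' => ⟨mem_univ _, h', h⟩⟩
    · rw [card_eq_zero, filter_eq_empty_iff]
      intro r _ hr
      exact h ((hiff r).1 hr).2
  · intro τ σ hσ
    refine hP u m T g f grp
      (fun x y => ∃ (c : (Fin u × Fin S) ⊕ Fin R) (r r' : Fin m), (r : ℕ) < ln lf lr c ∧
        (r' : ℕ) < ln lf lr c ∧ r ≠ r' ∧ K τ c r = x ∧ K τ c r' = y) hgT hTf hf ?_ ?_ ?_ ?_ σ ?_
    · rintro x y ⟨c, r, r', hr, hr', hne, hx, hy⟩
      exact ⟨c, r', r, hr', hr, hne.symm, hy, hx⟩
    · rintro ⟨r, x⟩ ⟨r', y⟩ hne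
      have hne' : r ≠ r' := hne
      obtain ⟨p, p', hpp, hx, hy⟩ := hall r r' hne' x x.2 y y.2
      refine ⟨Sum.inr (ε r p), r, r', (hεr r p).1, ?_, hne', ?_, ?_⟩
      · rw [hpp]
        exact (hεr r' p').1
      · rw [hKp]
        have h1 : (⟨cd r p % f r, Nat.mod_lt _ (hfpos r)⟩ : Fin (f r)) = x := Fin.ext hx
        rw [h1]
      · rw [hpp, hKp]
        have h1 : (⟨cd r' p' % f r', Nat.mod_lt _ (hfpos r')⟩ : Fin (f r')) = y := Fin.ext hy
        rw [h1]
    · have hlt : ∀ i j : Fin u, i < j → grp i = grp j →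
          ∃ (c : (Fin u × Fin S) ⊕ Fin R) (r r' : Fin m), (r : ℕ) < ln lf lr c ∧
            (r' : ℕ) < ln lf lr c ∧ r ≠ r' ∧ K τ c r = Sum.inl i ∧ K τ c r' = Sum.inl j := by
        intro i j hij hg
        obtain ⟨c, r, r', hne, hr, hr', hi, hj⟩ := hpair i j hij hg
        exact ⟨Sum.inr c, r, r', hr, hr', hne, hKs τ c r i hi, hKs τ c r' j hj⟩
      intro i j hij hg
      rcases lt_or_gt_of_ne hij with h | h
      · exact hlt i j h hg
      · obtain ⟨c, r, r', hr, hr', hne, hx, hy⟩ := hlt j i h hg.symm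
        exact ⟨c, r', r, hr', hr, hne.symm, hy, hx⟩
    · intro i r
      obtain ⟨p, hp, hpr⟩ := hfree i r
      refine ⟨univ.image fun t : Fin T => ⟨cd r (p t) % f r, Nat.mod_lt _ (hfpos r)⟩, ?_, ?_⟩
      · rw [card_image_of_injective, card_univ, Fintype.card_fin]
        intro t t' h
        exact hp (congrArg Fin.val h)
      · intro j hj
        obtain ⟨t, _, rfl⟩ := mem_image.1 hj
        obtain ⟨ro, hne, hlt, hs⟩ := hpr t
        exact ⟨Sum.inr (ε r (p t)), ro, r, hlt, (hεr r (p t)).1, hne, hKs τ _ _ i hs, hKp τ r (p t)⟩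
    · rintro x y ⟨c, r, r', hr, hr', hne, rfl, rfl⟩
      exact hσ c r r' hr hr' hne

end Vale.Agent.P181.RH.H467
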